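import Vale.Agent.P172V.Final

/-!
# P172: a word-hyperbolic group that is neither a CAT(0) group nor a CAT(-1) group

There is a word-hyperbolic group with no properly discontinuous, cocompact action by isometries on
a nonempty proper CAT(0) space (or CAT(-1) space).
-/

namespace Vale.Agent.Results.P172.NoGeometricAction

open Vale.Agent.P172 Vale.Agent.P172.H372

universe u

theorem result : ∃ (G : Type) (_ : Group G), Vale.Agent.P186.IsHyperbolicGroup G ∧
    ∀ (X : Type u) [MetricSpace X] [MulAction G X], Nonempty X → ProperSpace X →
      IsIsometricSMul G X → IsCAT0 X ∨ IsCATNegOne X → ¬ IsGeometric G X :=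
  Vale.Agent.P172V.main_final

end Vale.Agent.Results.P172.NoGeometricAction
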